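import Vale.Agent.P158.NB.Main.Pins
import Vale.Agent.P158.NB.Budget

/-!
# P158: the mass of a ball, seen by the distant domains, is linear in its radius

By stationarity the mass is the average over the centres `z` in the box of radius `n / 8`, and the
average of the masses of the balls around these centres is at most `L` times the budget over the
area.
-/

namespace Vale.Agent.P158.NB

open Vale.Agent.P158 MeasureTheory Filter Topology
open scoped ENNReal

namespace FarMass

lemma shift_shift_neg (C : Cyc) (z : V) : (C.shift (-z)).shift z = C := by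
  cases C
  simp [Cyc.shift, add_assoc]

lemma trE_image_boxEdges (z : V) (r : ℕ) :
    trE z '' (Ball.boxEdges 0 r : Set (Sym2 V)) = (Ball.boxEdges z r : Set (Sym2 V)) := by
  ext e
  simp only [Set.mem_image, Finset.mem_coe, Ball.mem_boxEdges]
  constructor
  · rintro ⟨e, ⟨he, hin⟩, rfl⟩
    refine ⟨isEdge_trE he, fun v hv => ?_⟩
    obtain ⟨a, ha, rfl⟩ := Sym2.mem_map.1 hv
    have := hin a ha
    simpa [box] using this
  · rintro ⟨he, hin⟩
    refine ⟨trE (-z) e, ⟨isEdge_trE he, fun v hv => ?_⟩, by simp [trE_trE]⟩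
    obtain ⟨a, ha, rfl⟩ := Sym2.mem_map.1 hv
    have := hin a ha
    simpa [box, ← sub_eq_add_neg] using this

lemma encloses_of_mem_box {C : Cyc} {z : V} {n M r : ℕ} (hC : C.Encloses 0 n) (hz : z ∈ box 0 M)
    (h : M + r ≤ n) : C.Encloses z r := by
  have hsub : box z r ⊆ box 0 n := fun v hv => by
    simp only [box, Set.mem_ofPred_eq, abs_le, Prod.fst_zero, Prod.snd_zero, sub_zero] at hv hz ⊢
    omega
  exact ⟨fun k hk hm => hC.1 k hk (hsub hm), fun f h1 h2 => hC.2 f (hsub h1) (hsub h2)⟩

lemma mass_nonneg (hM : MongeStmt) (C : Cyc) {t : Conf} (hok : OK t) (F : Set (Sym2 V)) :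
    0 ≤ C.mass t F := by
  classical
  exact Finset.sum_nonneg fun p hp =>
    (hM C t hok).1 ∅ (fun _ _ => Set.notMem_empty _) p (Finset.mem_filter.1 hp).1

/-- The balls around the centres in a box cover each edge at most `81 L²` times. -/
lemma sum_mass_le (hM : MongeStmt) (C : Cyc) {t : Conf} (hok : OK t) {L M : ℕ} (hL : 1 ≤ L)
    (hC : ∀ z ∈ Ball.boxFin 0 M, C.Encloses z (4 * L)) :
    ∃ U : Finset (Sym2 V), U = (Ball.boxFin 0 M).biUnion (fun z => Ball.boxEdges z (4 * L)) ∧
      ∑ z ∈ Ball.boxFin 0 M, C.mass t (Ball.boxEdges z (2 * L + 2) : Set (Sym2 V)) ≤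
        81 * L * ∑ e ∈ U, C.mass t {e} := by
  classical
  refine ⟨_, rfl, le_of_mul_le_mul_left ?_ (Nat.cast_pos.2 hL : (0 : ℝ) < L)⟩
  rw [Finset.mul_sum]
  set U := (Ball.boxFin 0 M).biUnion fun z => Ball.boxEdges z (4 * L)
  calc _ ≤ ∑ z ∈ Ball.boxFin 0 M, ∑ e ∈ Ball.boxEdges z (4 * L), C.mass t {e} :=
        Finset.sum_le_sum fun z hz => Ball.mass_le_sum C t hL (hC z hz)
          fun p hp => (hM C t hok).1 ∅ (fun _ _ => Set.notMem_empty _) p hp
    _ = ∑ e ∈ U, ∑ _z ∈ (Ball.boxFin 0 M).filter (fun z => e ∈ Ball.boxEdges z (4 * L)),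
          C.mass t {e} := by
        refine Finset.sum_comm' fun z e => ?_
        simp only [U, Finset.mem_filter, Finset.mem_biUnion]
        exact ⟨fun h => ⟨h, z, h⟩, fun h => h.1⟩
    _ ≤ ∑ e ∈ U, (81 * L ^ 2 : ℝ) * C.mass t {e} := by
        refine Finset.sum_le_sum fun e _ => ?_
        rw [Finset.sum_const, nsmul_eq_mul]
        refine mul_le_mul_of_nonneg_right ?_ (mass_nonneg hM C hok _)
        induction e using Sym2.ind with
        | _ a b =>
          have hsub : (Ball.boxFin 0 M).filter (fun z => s(a, b) ∈ Ball.boxEdges z (4 * L)) ⊆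
              Ball.boxFin a (4 * L) := fun z hz => by
            have h := (Ball.mem_boxEdges.1 (Finset.mem_filter.1 hz).2).2 a (Sym2.mem_mk_left a b)
            rw [Ball.mem_boxFin]
            simpa [box, abs_sub_comm] using h
          calc _ ≤ ((Ball.boxFin a (4 * L)).card : ℝ) := Nat.cast_le.2 (Finset.card_le_card hsub)
            _ ≤ 81 * (L : ℝ) ^ 2 := by
                rw [Ball.card_boxFin]
                push_cast
                have : (1 : ℝ) ≤ L := Nat.one_le_cast.2 hL
                nlinarith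
    _ = _ := by rw [← Finset.mul_sum]; ring

variable {G : Measure ℝ} [IsProbabilityMeasure G]

omit [IsProbabilityMeasure G] in
lemma measurable_farMass (R : Ring G) (L N : ℕ) : Measurable (farMass G R L N) :=
  .iInf fun n => .iInf fun _ => .iInf fun z => .iInf fun _ =>
    .biInf _ (R.fin n).countable fun C _ => .iInf fun _ =>
      ((C.shift (-z)).meas_mass _).ennreal_ofReal

omit [IsProbabilityMeasure G] in
/-- Seen from `z`, the random domain of `t` is one of the distant domains. -/
lemma farMass_shift_le (R : Ring G) {L N n : ℕ} (hn : N ≤ n) {z : V} (hz : z ∈ box 0 (n / 8))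
    {t : Conf} (ht : t ∈ R.good n) :
    farMass G R L N (shiftW z t) ≤
      ENNReal.ofReal ((R.cyc n t).mass t (Ball.boxEdges z (2 * L + 2) : Set (Sym2 V))) := by
  refine iInf_le_of_le n (iInf_le_of_le hn (iInf_le_of_le z (iInf_le_of_le hz
    (iInf_le_of_le (R.cyc n t) (iInf_le_of_le ⟨t, rfl⟩ (iInf_le_of_le (R.encl n t ht) ?_))))))
  rw [← trE_image_boxEdges z, ← Cyc.shift_mass, shift_shift_neg]

omit [IsProbabilityMeasure G] in
/-- The bad configurations vanish. -/
lemma bad_tendsto (P : Params G) (R : Ring G) :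
    Tendsto (fun n => env G (R.good n ∩ LongGood P.θ n)ᶜ) atTop (𝓝 0) := by
  have hlong : Tendsto (fun n => env G (LongGood P.θ n)ᶜ) atTop (𝓝 0) := by
    refine tendsto_of_tendsto_of_tendsto_of_le_of_le' tendsto_const_nhds P.long
      (Eventually.of_forall fun _ => zero_le) ?_
    filter_upwards [eventually_ge_atTop 1] with n hn
    exact le_mul_of_one_le_left' (one_le_pow₀ (Nat.one_le_cast.2 hn))
  have h := R.prob.add hlong
  rw [add_zero] at h
  refine tendsto_of_tendsto_of_tendsto_of_le_of_le tendsto_const_nhds h (fun _ => zero_le)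
    fun n => ?_
  rw [Set.compl_inter]
  exact measure_union_le _ _

end FarMass

open FarMass

variable (G : Measure ℝ) [IsProbabilityMeasure G]

/-- The mass of a ball is linear in its radius, uniformly. -/
theorem farMass_stmt (hM : MongeStmt) : FarMassStmt G := by
  intro P R hok
  obtain ⟨B, hB, hbud⟩ := budget hM P R
  have : IsProbabilityMeasure (env G) := by unfold env; infer_instance
  refine ⟨5184 * B, ENNReal.mul_lt_top (by simp) hB, fun L hL N =>
    ⟨measurable_farMass R L N, ?_⟩⟩
  have hsup : (fun t => farMass G R L N t) =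
      fun t => ⨆ K : ℕ, min (farMass G R L N t) (K : ℝ≥0∞) := funext fun t => by
    rw [← inf_iSup_eq, ENNReal.iSup_natCast]
    simp
  rw [hsup, lintegral_iSup (fun K => (measurable_farMass R L N).min measurable_const)
    (fun K K' h t => min_le_min le_rfl (Nat.cast_le.2 h))]
  refine iSup_le fun K => ?_
  set f : Conf → ℝ≥0∞ := fun t => min (farMass G R L N t) K with hf
  have hfm : Measurable f := (measurable_farMass R L N).min measurable_const
  have hlim : Tendsto (fun n => 5184 * B * L + (K : ℝ≥0∞) * env G (R.good n ∩ LongGood P.θ n)ᶜ)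
      atTop (𝓝 (5184 * B * L)) := by
    simpa using tendsto_const_nhds.add
      (ENNReal.Tendsto.const_mul (bad_tendsto P R) (Or.inr (ENNReal.natCast_ne_top K)))
  refine ge_of_tendsto hlim ?_
  filter_upwards [eventually_ge_atTop N, eventually_ge_atTop (64 * L)] with n hnN hn
  set S := R.good n ∩ LongGood P.θ n
  have hSm : MeasurableSet S := (R.meas_good n).inter (meas_longGood P.θ n)
  set Z := Ball.boxFin 0 (n / 8) with hZ
  set U := Z.biUnion fun z => Ball.boxEdges z (4 * L)
  have hsum : ∑ z ∈ Z, ∫⁻ t in S, f (shiftW z t) ∂env G ≤ 81 * L * (B * (n : ℝ≥0∞) ^ 2) := by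
    rw [← lintegral_finsetSum Z (f := fun z t => f (shiftW z t))
      fun z _ => hfm.comp (Ball.measurable_shiftW z)]
    have hS : (S ∩ {t | OK t} : Set Conf) =ᵐ[env G] (S : Set Conf) :=
      inter_ae_eq_left_of_ae_eq_univ (eventuallyEq_univ.2 hok)
    rw [← setLIntegral_congr hS]
    calc _ ≤ ∫⁻ t in S ∩ {t | OK t},
          81 * L * ENNReal.ofReal (∑ e ∈ U, (R.cyc n t).mass t {e}) ∂env G := by
          refine setLIntegral_mono ((Finset.measurable_sum _ fun e _ =>
            R.meas_mass n {e}).ennreal_ofReal.const_mul _) fun t ht => ?_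
          obtain ⟨V, hV, hle⟩ := sum_mass_le hM (R.cyc n t) ht.2 hL (M := n / 8) fun z hz =>
            encloses_of_mem_box (R.encl n t ht.1.1) (Ball.mem_boxFin.1 hz) (by omega)
          subst hV
          calc ∑ z ∈ Z, f (shiftW z t)
              ≤ ∑ z ∈ Z, ENNReal.ofReal
                  ((R.cyc n t).mass t (Ball.boxEdges z (2 * L + 2) : Set (Sym2 V))) :=
                Finset.sum_le_sum fun z hz => (min_le_left _ _).trans
                  (farMass_shift_le R hnN (Ball.mem_boxFin.1 hz) ht.1.1)
            _ ≤ ENNReal.ofReal (81 * L * ∑ e ∈ U, (R.cyc n t).mass t {e}) := by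
                rw [← ENNReal.ofReal_sum_of_nonneg fun z _ => mass_nonneg hM _ ht.2 _]
                exact ENNReal.ofReal_le_ofReal hle
            _ = _ := by
                rw [ENNReal.ofReal_mul (by positivity), ENNReal.ofReal_mul (by norm_num)]
                simp
      _ ≤ _ := by
          rw [lintegral_const_mul' _ _
            (ENNReal.mul_ne_top (by simp) (ENNReal.natCast_ne_top L))]
          exact mul_le_mul_right (hbud n (by omega) U) _
  have hcard : (n : ℝ≥0∞) ^ 2 ≤ 64 * Z.card := by
    have : n ^ 2 ≤ 64 * Z.card := by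
      rw [hZ, Ball.card_boxFin]
      calc n ^ 2 ≤ (8 * (2 * (n / 8) + 1)) ^ 2 := Nat.pow_le_pow_left (by omega) 2
        _ = _ := by ring
    exact_mod_cast this
  have key : (Z.card : ℝ≥0∞) * ∫⁻ t, f t ∂env G ≤
      Z.card * (5184 * B * L + K * env G Sᶜ) := by
    calc (Z.card : ℝ≥0∞) * ∫⁻ t, f t ∂env G
        = ∑ z ∈ Z, ∫⁻ t, f (shiftW z t) ∂env G := by
          rw [Finset.sum_congr rfl fun z _ => (by
            rw [← lintegral_map hfm (Ball.measurable_shiftW z), Ball.env_shift] :
              ∫⁻ t, f (shiftW z t) ∂env G = ∫⁻ t, f t ∂env G), Finset.sum_const, nsmul_eq_mul]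
      _ ≤ ∑ z ∈ Z, ((∫⁻ t in S, f (shiftW z t) ∂env G) + K * env G Sᶜ) :=
          Finset.sum_le_sum fun z _ => by
            rw [← lintegral_add_compl (fun t => f (shiftW z t)) hSm]
            refine add_le_add le_rfl ?_
            calc _ ≤ ∫⁻ _ in Sᶜ, (K : ℝ≥0∞) ∂env G := lintegral_mono fun t => min_le_right _ _
              _ = _ := setLIntegral_const _ _
      _ = (∑ z ∈ Z, ∫⁻ t in S, f (shiftW z t) ∂env G) + Z.card * (K * env G Sᶜ) := by
          rw [Finset.sum_add_distrib, Finset.sum_const, nsmul_eq_mul]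
      _ ≤ 81 * L * (B * (64 * Z.card)) + Z.card * (K * env G Sᶜ) :=
          add_le_add (hsum.trans (by gcongr)) le_rfl
      _ = _ := by ring
  refine (ENNReal.mul_le_mul_iff_right ?_ (ENNReal.natCast_ne_top _)).1 key
  rw [Nat.cast_ne_zero, hZ, Ball.card_boxFin]
  positivity

end Vale.Agent.P158.NB
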