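import Vale.Agent.P158.NB.Main.Pins
import Vale.Agent.P158.NB.LineFacts

/-!
# P158: one line uses linearly many edges of a box
-/

namespace Vale.Agent.P158.NB

open Vale.Agent.P158

/-- Weighted count of strong steps. -/
lemma strong_count_le {t : Conf} (hp : ∀ e, 0 ≤ t e) {θ : ℝ} (v : ℕ → V) (L : ℕ) :
    θ * ((Finset.range L).filter fun k => θ ≤ t s(v k, v (k + 1))).card ≤ cost t v L := by
  rw [mul_comm, ← nsmul_eq_mul]
  refine le_trans (Finset.card_nsmul_le_sum _ (fun k => t s(v k, v (k + 1))) θ fun k hk =>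
    (Finset.mem_filter.1 hk).2) ?_
  exact Finset.sum_le_sum_of_subset_of_nonneg (Finset.filter_subset _ _) fun k _ _ => hp _

theorem lineCount_stmt : LineCountStmt := by
  classical
  intro θ t s r n C hokt hoks hle hout hencl hbox hlong hθ γ hγ S hS
  have hp := hokt.nonneg
  rcases S.eq_empty_or_nonempty with rfl | hne
  · have := cost_nonneg hp C.c C.m
    simp only [Finset.card_empty, Nat.cast_zero, mul_zero]
    positivity
  -- the visits of the box
  have hfin : {i : ℤ | γ i ∈ box 0 r}.Finite := by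
    refine (((Ball.boxFin 0 r).finite_toSet).preimage hγ.inj.injOn).subset fun i hi => ?_
    simpa [Ball.mem_boxFin] using hi
  have hmem : ∀ e ∈ S, ∃ i, s(γ i, γ (i + 1)) = e ∧ γ i ∈ box 0 r ∧ γ (i + 1) ∈ box 0 r := by
    intro e he
    obtain ⟨hin, i, rfl⟩ := hS e he
    exact ⟨i, rfl, hin _ (Sym2.mem_mk_left _ _), hin _ (Sym2.mem_mk_right _ _)⟩
  have hne' : hfin.toFinset.Nonempty := by
    obtain ⟨e, he⟩ := hne
    obtain ⟨i, -, hi, -⟩ := hmem e he
    exact ⟨i, hfin.mem_toFinset.2 hi⟩
  set i0 := hfin.toFinset.min' hne' with hi0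
  set i1 := hfin.toFinset.max' hne' with hi1
  have h0 : γ i0 ∈ box 0 r := hfin.mem_toFinset.1 (Finset.min'_mem _ _)
  have h1 : γ i1 ∈ box 0 r := hfin.mem_toFinset.1 (Finset.max'_mem _ _)
  have hrange : ∀ i, γ i ∈ box 0 r → i0 ≤ i ∧ i ≤ i1 := fun i hi =>
    ⟨Finset.min'_le _ _ (hfin.mem_toFinset.2 hi), Finset.le_max' _ _ (hfin.mem_toFinset.2 hi)⟩
  have h01 : i0 ≤ i1 := (hrange i0 h0).2
  obtain ⟨A, ⟨p, hpm, hp'⟩, -⟩ := C.hit_backward hencl (Nat.succ_le_succ (Nat.zero_le r))
    hγ.inj hγ.adj (m0 := i0) (by simpa using h0)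
  obtain ⟨B, ⟨q, hqm, hq'⟩, -⟩ := C.hit_forward hencl (Nat.succ_le_succ (Nat.zero_le r))
    hγ.inj hγ.adj (m0 := i1) (by simpa using h1)
  set a : ℤ := i0 - A with ha
  set M : ℕ := (i1 - i0).toNat + A + B with hM
  set v : ℕ → V := fun k => γ (a + k) with hv
  have hv0 : v 0 = C.c p := by simp [hv, hp']
  have hvM : v M = C.c q := by
    rw [hq', hv]
    show γ (a + M) = γ (i1 + B)
    congr 1
    simp only [hM, ha]
    omega
  have hgeo : IsGeo s v M := hγ.geo a M
  have hinj : Set.InjOn v (Set.Iic M) := fun x _ y _ e => by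
    have := hγ.inj e; omega
  -- an arc of the cycle joins the ends
  have hcyc : ∀ k < C.m, t s(C.c k, C.c (k + 1)) = s s(C.c k, C.c (k + 1)) := by
    intro k hk
    refine hout _ fun hin => hencl.1 k hk ?_
    have := hin _ (Sym2.mem_mk_left _ _)
    simp only [box, Set.mem_ofPred_eq, abs_le] at this ⊢
    omega
  have harc : ∀ x y, x ≤ y → y ≤ C.m →
      IsPath (seg C.c x) (y - x) ∧ cost s (seg C.c x) (y - x) ≤ cost t C.c C.m := by
    intro x y hxy hy
    refine ⟨C.path.shift hxy hy, ?_⟩
    have e : cost s (seg C.c x) (y - x) = cost t (seg C.c x) (y - x) :=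
      Finset.sum_congr rfl fun k hk => by
        rw [Finset.mem_range] at hk
        simp only [seg_apply, ← add_assoc]
        exact (hcyc (x + k) (by omega)).symm
    rw [e, cost_seg_add t C.c hy, cost_seg_add t C.c hxy]
    linarith [cost_nonneg hp C.c x, cost_nonneg hp (seg C.c y) (C.m - y)]
  have hcost : cost t v M ≤ cost t C.c C.m := by
    refine (cost_mono hle v M).trans ?_
    rcases le_total p q with hpq | hqp
    · obtain ⟨w1, w2⟩ := harc p q hpq hqm.le
      refine (hgeo.2 _ _ w1 ?_ ?_).trans w2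
      · simp [hv0]
      · simp [hvM, show p + (q - p) = q by omega]
    · obtain ⟨w1, w2⟩ := harc q p hqp hpm.le
      refine (hgeo.2 (Vale.Agent.P158.rev (seg C.c q) (p - q)) _ (rev_path w1) ?_ ?_).trans
        (le_of_eq_of_le (rev_cost s _ _) w2)
      · simp [Vale.Agent.P158.rev, hv0, show q + (p - q) = p by omega]
      · simp [Vale.Agent.P158.rev, hvM]
  have hlen : θ * M ≤ θ * n + 2 * cost t C.c C.m := by
    have h2 := cost_nonneg hp C.c C.m
    rcases lt_or_ge M n with hlt | hge
    · have : θ * M ≤ θ * n := mul_le_mul_of_nonneg_left (by exact_mod_cast hlt.le) hθ.le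
      linarith
    · have h3 := hlong v M hgeo.1 hinj (hv0 ▸ hbox p hpm) hge
      have h4 : θ * (M : ℝ) ≤
          θ * (2 * ((Finset.range M).filter fun k => θ ≤ t s(v k, v (k + 1))).card) :=
        mul_le_mul_of_nonneg_left (by exact_mod_cast h3) hθ.le
      have h5 := strong_count_le (θ := θ) hp v M
      have : 0 ≤ θ * (n : ℝ) := by positivity
      linarith
  -- the edges of the line inside the box lie on the segment
  have hsub : S ⊆ (Finset.range M).image fun k => s(v k, v (k + 1)) := by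
    intro e he
    obtain ⟨i, rfl, hi, hi'⟩ := hmem e he
    have r1 := hrange i hi
    have r2 := hrange (i + 1) hi'
    have e1 : a + ((i - a).toNat : ℤ) = i := by omega
    refine Finset.mem_image.2 ⟨(i - a).toNat, Finset.mem_range.2 (by omega), ?_⟩
    simp only [hv, Nat.cast_add, Nat.cast_one, ← add_assoc, e1]
  have hcard : (S.card : ℝ) ≤ M := by
    have := (Finset.card_le_card hsub).trans Finset.card_image_le
    rw [Finset.card_range] at this
    exact_mod_cast this
  exact (mul_le_mul_of_nonneg_left hcard hθ.le).trans hlen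

end Vale.Agent.P158.NB
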