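import Vale.Agent.P158.NB.Main.Pins
import Vale.Agent.P158.NB.Lines.Meas

/-!
# P158: geodesic segments of all radii around an edge make a line through it

Koenig's lemma on windows: every window extends to one of the next radius, and a coherent sequence
of windows is a line.
-/

namespace Vale.Agent.P158.NB

open Vale.Agent.P158

/-- A line through an edge, from segments of all radii around it. -/
theorem exists_line_of_segs {t : Conf} {e : Sym2 V} (h : ∀ k, ∃ v, Seg t e k v) :
    ∃ γ, IsLine t γ ∧ LineUses γ e := by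
  classical
  -- a window of radius zero
  obtain ⟨w₀, hw₀⟩ : ∃ w, w ∈ wins t e 0 := by
    obtain ⟨v₀, hv₀⟩ := h 0
    let A : Fin (2 * 0 + 2) → V := ![v₀ 0, v₀ 1]
    let B : Fin (2 * 0 + 2) → V := ![v₀ 1, v₀ 0]
    by_contra hcon
    push Not at hcon
    have hA := hcon A
    have hB := hcon B
    simp only [wins, Set.mem_ofPred_eq, not_forall, not_exists, exists_prop] at hA hB
    obtain ⟨ka, -, hka⟩ := hA
    obtain ⟨kb, -, hkb⟩ := hB
    obtain ⟨v, hv⟩ := h (max ka kb)
    have ha := Lines.seg_sub hv (le_max_left ka kb)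
    have hb := Lines.seg_sub hv (le_max_right ka kb)
    have hmid : s(v (max ka kb), v (max ka kb + 1)) = s(v₀ 0, v₀ 1) := hv.mid.trans hv₀.mid.symm
    rcases Sym2.eq_iff.1 hmid with ⟨p, q⟩ | ⟨p, q⟩
    · obtain ⟨i, hi⟩ := not_forall.1 fun hall => hka _ ⟨ha, hall⟩
      fin_cases i <;> refine hi ?_ <;> simp [A, ← p, ← q] <;> congr 1 <;> omega
    · obtain ⟨i, hi⟩ := not_forall.1 fun hall => hkb _ ⟨hb, hall⟩
      fin_cases i <;> refine hi ?_ <;> simp [B, ← p, ← q] <;> congr 1 <;> omega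
  -- coherent windows
  choose next hnext hnext' using fun (H : ℕ) (w : wins t e H) => Lines.wins_extend w.2
  let W : ∀ H, wins t e H :=
    fun H => Nat.rec (motive := fun H => wins t e H) ⟨w₀, hw₀⟩
      (fun H w => ⟨next H w, hnext H w⟩) H
  have hstep : ∀ H (i : Fin (2 * H + 2)), (W (H + 1)).1 ⟨1 + i, by omega⟩ = (W H).1 i :=
    fun H i => hnext' H (W H) i
  have hcoh : ∀ H d (i : Fin (2 * H + 2)),
      (W (H + d)).1 ⟨d + i, by omega⟩ = (W H).1 i := by
    intro H d
    induction d with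
    | zero =>
      intro i
      exact congrArg (W H).1 (Fin.ext (show 0 + (i : ℕ) = i from Nat.zero_add _))
    | succ d ih =>
      intro i
      refine Eq.trans ?_ (ih i)
      have := hstep (H + d) ⟨d + i, by omega⟩
      rw [← this]
      exact congrArg (W (H + d + 1)).1 (Fin.ext (show d + 1 + (i : ℕ) = 1 + (d + i) by omega))
  let γ : ℤ → V := fun i => (W i.natAbs).1 ⟨((i.natAbs : ℤ) + i).toNat, by omega⟩
  have key : ∀ (H : ℕ) (i : ℤ) (hi : i.natAbs ≤ H),
      (W H).1 ⟨((H : ℤ) + i).toNat, by omega⟩ = γ i := by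
    intro H i hi
    obtain ⟨d, rfl⟩ := Nat.exists_eq_add_of_le hi
    rw [show γ i = (W i.natAbs).1 ⟨((i.natAbs : ℤ) + i).toNat, by omega⟩ from rfl,
      ← hcoh i.natAbs d]
    exact congrArg (W (i.natAbs + d)).1 (Fin.ext (show (((i.natAbs + d : ℕ) : ℤ) + i).toNat =
      d + ((i.natAbs : ℤ) + i).toNat by omega))
  -- every stretch of `γ` is a segment
  have hseg : ∀ H : ℕ, ∃ v, Seg t e H v ∧ ∀ i : ℤ, i.natAbs ≤ H → v ((H : ℤ) + i).toNat = γ i := by
    intro H
    obtain ⟨v, hv, hw⟩ := (W H).2 H le_rfl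
    refine ⟨v, hv, fun i hi => ?_⟩
    have := hw ⟨((H : ℤ) + i).toNat, by omega⟩
    simp only [Nat.sub_self, zero_add] at this
    rw [this]
    exact key H i hi
  refine ⟨γ, ⟨fun a b hab => ?_, fun i => ?_, fun i L => ?_⟩, 0, ?_⟩
  · obtain ⟨v, hv, hvγ⟩ := hseg (max a.natAbs b.natAbs)
    have h2 := hv.inj (show (((max a.natAbs b.natAbs : ℕ) : ℤ) + a).toNat ∈ Set.Iic _ by
        simp only [Set.mem_Iic]; omega)
      (show (((max a.natAbs b.natAbs : ℕ) : ℤ) + b).toNat ∈ Set.Iic _ by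
        simp only [Set.mem_Iic]; omega)
      (by rw [hvγ a (le_max_left _ _), hvγ b (le_max_right _ _), hab])
    omega
  · obtain ⟨v, hv, hvγ⟩ := hseg (i.natAbs + 1)
    rw [← hvγ i (by omega), ← hvγ (i + 1) (by omega)]
    have := hv.geo.1 (((i.natAbs + 1 : ℕ) : ℤ) + i).toNat (by omega)
    rwa [show (((i.natAbs + 1 : ℕ) : ℤ) + i).toNat + 1 =
      (((i.natAbs + 1 : ℕ) : ℤ) + (i + 1)).toNat by omega] at this
  · obtain ⟨v, hv, hvγ⟩ := hseg (i.natAbs + L)
    set N := i.natAbs + L with hN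
    have hg := hv.geo.sub (show ((N : ℤ) + i).toNat ≤ ((N : ℤ) + i).toNat + L by omega) (by omega)
    rw [Nat.add_sub_cancel_left] at hg
    refine Lines.isGeo_congr' (fun k hk => ?_) hg
    rw [← hvγ (i + k) (by omega)]
    congr 1
    omega
  · obtain ⟨v, hv, hvγ⟩ := hseg 1
    rw [← hvγ 0 (by omega), ← hvγ (0 + 1) (by omega)]
    exact hv.mid

/-- Segments of all radii around an edge are the same as a line through it. -/
theorem segLine_stmt : SegLineStmt := by
  intro t e _
  refine ⟨exists_line_of_segs, ?_⟩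
  rintro ⟨γ, hγ, i, he⟩ k
  refine ⟨fun j => γ (i - k + (j : ℕ)), hγ.geo _ _, fun a _ b _ hab => ?_, ?_⟩
  · have := hγ.inj hab
    omega
  · show s(γ (i - k + ((k : ℕ) : ℤ)), γ (i - k + ((k + 1 : ℕ) : ℤ))) = e
    rw [← he, show i - (k : ℤ) + ((k : ℕ) : ℤ) = i by ring,
      show i - (k : ℤ) + ((k + 1 : ℕ) : ℤ) = i + 1 by push_cast; ring]

/-- The event of segments of all radii is measurable. -/
theorem measurableSet_segs (e : Sym2 V) : MeasurableSet {t : Conf | ∀ k, ∃ v, Seg t e k v} :=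
  Lines.measurableSet_forall_seg e

end Vale.Agent.P158.NB
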