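import Vale.Agent.P158.NB.Main.Pins
import Vale.Agent.P158.NB.Change
import Vale.Agent.P158.NB.Budget
import Vale.Agent.P158.NB.Lines.Meas

/-!
# P158: the tilt creates many selected edges, and one line takes only linearly many
-/

namespace Vale.Agent.P158.NB

open Vale.Agent.P158 MeasureTheory Filter Topology
open scoped ENNReal

namespace Tilt

/-! ## Strong edges with segments of all radii -/

lemma measurableSet_segAll (e : Sym2 V) :
    MeasurableSet {t : Conf | ∀ k, ∃ v, Seg t e k v} := by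
  have : {t : Conf | ∀ k, ∃ v, Seg t e k v} =
      ⋂ k : ℕ, ⋃ q : Fin (2 * k + 1 + 1) → V, {t | Seg t e k (Lines.ext q)} := by
    ext t
    simp only [Set.mem_iInter, Set.mem_iUnion, Set.mem_ofPred_eq]
    refine ⟨fun h k => ?_, fun h k => let ⟨q, hq⟩ := h k; ⟨_, hq⟩⟩
    obtain ⟨v, hv⟩ := h k
    exact ⟨fun j => v j,
      Lines.seg_congr (fun i hi => (Lines.ext_restrict v (2 * k + 1) i hi).symm) hv⟩
  rw [this]
  exact .iInter fun k => .iUnion fun q => Lines.measurableSet_seg _ _ _

lemma measurableSet_strongSeg (θ : ℝ) (e : Sym2 V) : MeasurableSet (strongSeg θ e) :=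
  (measurableSet_le measurable_const (measurable_pi_apply e)).inter (measurableSet_segAll e)

lemma seg_shiftW (z : V) (t : Conf) (e : Sym2 V) (k : ℕ) (v : ℕ → V) :
    Seg (shiftW z t) e k v ↔ Seg t (trE z e) k (fun i => v i + z) := by
  constructor
  · rintro ⟨hg, hi, hm⟩
    exact ⟨(Lines.isGeo_shiftW z t _ _).1 hg,
      fun a ha b hb hab => hi ha hb (add_right_cancel hab), by rw [← hm, trE_mk]⟩
  · rintro ⟨hg, hi, hm⟩
    exact ⟨(Lines.isGeo_shiftW z t _ _).2 hg, fun a ha b hb hab => hi ha hb (by simp [hab]),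
      trE_injective z hm⟩

lemma mem_strongSeg_shift (θ : ℝ) (z : V) (t : Conf) (e : Sym2 V) :
    shiftW z t ∈ strongSeg θ e ↔ t ∈ strongSeg θ (trE z e) := by
  show (θ ≤ t (trE z e) ∧ _) ↔ (θ ≤ t (trE z e) ∧ _)
  refine and_congr_right fun _ => forall_congr' fun k => ⟨fun ⟨v, h⟩ => ⟨_, (seg_shiftW ..).1 h⟩,
    fun ⟨v, h⟩ => ⟨fun i => v i - z, (seg_shiftW ..).2 (by simpa using h)⟩⟩

/-! ## The box -/

lemma trE_mem_boxEdges {L : ℕ} {z : V} (hz : z ∈ Ball.boxFin 0 L) {e₀ : Sym2 V}
    (he : IsEdge e₀) (hbox : e₀ ∈ edgesIn (box 0 1)) :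
    trE z e₀ ∈ Ball.boxEdges 0 (2 * L + 2) := by
  refine Ball.mem_boxEdges.2 ⟨isEdge_trE he, ?_⟩
  intro v hv
  obtain ⟨a, ha, rfl⟩ := Sym2.mem_map.1 hv
  have h1 := hbox a ha
  have h2 := Ball.mem_boxFin.1 hz
  simp only [box, Set.mem_ofPred_eq, abs_le, Prod.fst_zero, Prod.snd_zero, Prod.fst_add,
    Prod.snd_add, Nat.cast_add, Nat.cast_mul, Nat.cast_ofNat] at h1 h2 ⊢
  omega

lemma card_boxEdges_le (n : ℕ) : (Ball.boxEdges 0 n).card ≤ 4 * (2 * n + 1) ^ 2 := by
  classical
  set D : Finset V := {(1, 0), (-1, 0), (0, 1), (0, -1)} with hD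
  have hsub : Ball.boxEdges 0 n ⊆ (Ball.boxFin 0 n ×ˢ D).image fun p => s(p.1, p.1 + p.2) := by
    intro e he
    obtain ⟨⟨a, b, hab, rfl⟩, hin⟩ := Ball.mem_boxEdges.1 he
    refine Finset.mem_image.2 ⟨(a, b - a), Finset.mem_product.2
      ⟨Ball.mem_boxFin.2 (hin a (Sym2.mem_mk_left _ _)), ?_⟩, by simp⟩
    have := adj_cases hab
    simp only [hD, Finset.mem_insert, Finset.mem_singleton, Prod.ext_iff, Prod.fst_sub,
      Prod.snd_sub]
    omega
  refine (Finset.card_le_card hsub).trans (Finset.card_image_le.trans ?_)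
  rw [Finset.card_product, Ball.card_boxFin, mul_comm 4]
  exact Nat.mul_le_mul_left _ Finset.card_le_four

variable (G : Measure ℝ) [IsProbabilityMeasure G]

lemma tiltLaw_prob {ε : ℝ} (h0 : 0 ≤ ε) (h1 : ε ≤ 1) : IsProbabilityMeasure (tiltLaw G ε) := by
  have := coin_prob h0 h1
  show IsProbabilityMeasure ((env G).prod ((env G).prod (Measure.infinitePi fun _ => coin ε)))
  infer_instance

end Tilt

open Vale.Agent.P158.NB.Tilt

variable (G : Measure ℝ) [IsProbabilityMeasure G]

open Classical in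
/-- Many edges are selected under the tilt. -/
theorem tiltLower_stmt (hatom : ∀ x, G {x} = 0) : TiltLowerStmt G := by
  intro P e₀ he₀ hbox K hK hp
  set A₀ := strongSeg P.θ e₀ with hA₀
  have hA₀m : MeasurableSet A₀ := measurableSet_strongSeg _ _
  set p0 := (env G).real A₀ with hp0
  have hp0' : 0 < p0 := ENNReal.toReal_pos hp.ne' (measure_ne_top _ _)
  set Bad : ℕ → Set Conf := fun L =>
    {t | (((Ball.boxFin 0 L).filter fun z => shiftW z t ∈ A₀).card : ℝ) <
      (p0 - p0 / 2) * (Ball.boxFin 0 L).card} with hBad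
  have hbad : Tendsto (fun L => env G (Bad L)) atTop (𝓝 0) :=
    Ball.density G hA₀m (half_pos hp0')
  -- contiguity: the tilt rarely sees a sparse box
  have hsmall : ∀ᶠ L : ℕ in atTop,
      ENNReal.ofReal (Real.exp (324 * K ^ 2)) * env G (Bad L) ≤ (2⁻¹ : ℝ≥0∞) ^ 2 := by
    have h := ENNReal.Tendsto.const_mul hbad
      (Or.inr (ENNReal.ofReal_ne_top (r := Real.exp (324 * K ^ 2))))
    rw [mul_zero] at h
    exact h.eventually (eventually_le_nhds (by simp [pos_iff_ne_zero]))
  filter_upwards [hsmall, eventually_ge_atTop 1, eventually_ge_atTop ⌈K⌉₊] with L hsm hL hLK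
  have hL' : (0 : ℝ) < L := by exact_mod_cast hL
  set ε := K / (L : ℝ) with hε
  have hε0 : 0 ≤ ε := by positivity
  have hε1 : ε ≤ 1 := by
    rw [hε, div_le_one hL']
    exact Nat.ceil_le.1 hLK
  have := tiltLaw_prob G hε0 hε1
  set F := Ball.boxEdges 0 (2 * L + 2) with hF
  set Z := Ball.boxFin 0 L with hZ
  set μ := tiltLaw G ε with hμ
  set S : Conf × Conf × (Sym2 V → Bool) → Conf := fun p => tiltW F p.1 p.2.1 p.2.2 with hS
  have hSm : Measurable S := tiltW_meas F
  have hBm : MeasurableSet (Bad L) := by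
    have : (fun t : Conf => ((Z.filter fun z => shiftW z t ∈ A₀).card : ℝ)) =
        fun t => ∑ z ∈ Z, (shiftW z ⁻¹' A₀).indicator (fun _ => (1 : ℝ)) t := by
      funext t
      rw [← Finset.sum_boole]
      exact Finset.sum_congr rfl fun z _ => by simp [Set.indicator_apply]
    refine measurableSet_lt ?_ measurable_const
    rw [this]
    exact Finset.measurable_sum _ fun z _ =>
      measurable_const.indicator (Ball.measurable_shiftW z hA₀m)
  have hrare : μ (S ⁻¹' Bad L) ≤ 2⁻¹ := by
    have h1 : μ (S ⁻¹' Bad L) ^ 2 ≤ (2⁻¹ : ℝ≥0∞) ^ 2 := by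
      refine ((change_stmt G hatom).2.2.1 F ε hε0 hε1 _ hBm).trans (le_trans ?_ hsm)
      refine mul_le_mul' (ENNReal.ofReal_le_ofReal (Real.exp_le_exp.2 ?_)) le_rfl
      have hc : (F.card : ℝ) ≤ 4 * (2 * (2 * L + 2) + 1 : ℝ) ^ 2 := by
        exact_mod_cast card_boxEdges_le (2 * L + 2)
      have h1L : (1 : ℝ) ≤ L := by exact_mod_cast hL
      refine (mul_le_mul_of_nonneg_right hc (sq_nonneg ε)).trans ?_
      rw [hε, div_pow, ← mul_div_assoc, div_le_iff₀ (by positivity)]
      nlinarith [mul_le_mul_of_nonneg_right (show 4 * (2 * (2 * L + 2) + 1 : ℝ) ^ 2 ≤ 324 * L ^ 2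
        by nlinarith) (sq_nonneg K)]
    exact (ENNReal.pow_le_pow_left_iff two_ne_zero).1 h1
  have hhalf : 2⁻¹ ≤ μ (S ⁻¹' Bad L)ᶜ := by
    rw [prob_compl_eq_one_sub (hSm hBm)]
    exact le_trans (le_of_eq ENNReal.one_sub_inv_two.symm) (tsub_le_tsub_left hrare 1)
  -- so the translates of the event are seen linearly often
  have hSA : ∀ z, MeasurableSet {p | S p ∈ strongSeg P.θ (trE z e₀)} := fun z =>
    hSm (measurableSet_strongSeg _ _)
  have hsum : ENNReal.ofReal (p0 / 2 * Z.card) * 2⁻¹ ≤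
      ∑ z ∈ Z, μ {p | S p ∈ strongSeg P.θ (trE z e₀)} := by
    calc ENNReal.ofReal (p0 / 2 * Z.card) * 2⁻¹
        ≤ ∫⁻ _ in (S ⁻¹' Bad L)ᶜ, ENNReal.ofReal (p0 / 2 * Z.card) ∂μ := by
          rw [setLIntegral_const]
          exact mul_le_mul' le_rfl hhalf
      _ ≤ ∫⁻ p in (S ⁻¹' Bad L)ᶜ,
            ∑ z ∈ Z, {p | S p ∈ strongSeg P.θ (trE z e₀)}.indicator 1 p ∂μ := by
          refine setLIntegral_mono (Finset.measurable_sum _ fun z _ =>
            measurable_one.indicator (hSA z)) fun p hp => ?_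
          have hp' : p0 / 2 * (Z.card : ℝ) ≤
              ((Z.filter fun z => shiftW z (S p) ∈ A₀).card : ℝ) := by
            simp only [Set.mem_compl_iff, Set.mem_preimage, hBad, Set.mem_ofPred_eq, not_lt] at hp
            linarith
          refine (ENNReal.ofReal_le_ofReal hp').trans (le_of_eq ?_)
          rw [ENNReal.ofReal_natCast, Finset.natCast_card_filter]
          refine Finset.sum_congr rfl fun z _ => ?_
          simp [Set.indicator_apply, hA₀, mem_strongSeg_shift]
      _ ≤ ∫⁻ p, ∑ z ∈ Z, {p | S p ∈ strongSeg P.θ (trE z e₀)}.indicator 1 p ∂μ :=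
          setLIntegral_le_lintegral _ _
      _ = _ := by
          rw [lintegral_finsetSum _ fun z _ => measurable_one.indicator (hSA z)]
          exact Finset.sum_congr rfl fun z _ => lintegral_indicator_one (hSA z)
  -- the selected edges
  set E : V → Set (Conf × Conf × (Sym2 V → Bool)) := fun z =>
    {p | S p ∈ strongSeg P.θ (trE z e₀) ∧ p.2.2 (trE z e₀) = true ∧ p.1 (trE z e₀) < P.θ'}
    with hE
  have hEm : ∀ z, MeasurableSet (E z) := fun z =>
    (hSm (measurableSet_strongSeg _ _)).inter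
      (((by fun_prop : Measurable fun p : Conf × Conf × (Sym2 V → Bool) => p.2.2 (trE z e₀))
        (measurableSet_singleton true)).inter
      ((by fun_prop : Measurable fun p : Conf × Conf × (Sym2 V → Bool) => p.1 (trE z e₀))
        measurableSet_Iio))
  have hcard : ∀ p, ((selected G P L e₀ p).card : ℝ≥0∞) = ∑ z ∈ Z, (E z).indicator 1 p := by
    intro p
    unfold selected
    rw [Finset.natCast_card_filter]
    exact Finset.sum_congr rfl fun z _ => by simp [Set.indicator_apply, hE, hS, hF]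
  rw [lintegral_congr hcard, lintegral_finsetSum _ fun z _ => measurable_one.indicator (hEm z),
    Finset.sum_congr rfl fun z (_ : z ∈ Z) => lintegral_indicator_one (hEm z)]
  have hflag : ∀ z ∈ Z, ENNReal.ofReal (ε / 2) * G (Set.Iio P.θ') *
      μ {p | S p ∈ strongSeg P.θ (trE z e₀)} ≤ μ (E z) := fun z hz =>
    (change_stmt G hatom).2.2.2 F ε hε0 hε1 _ (measurableSet_strongSeg _ _) _
      (trE_mem_boxEdges hz he₀ hbox) P.θ' P.θ P.lt.le fun s hs => hs.1
  refine le_trans ?_ (Finset.sum_le_sum hflag)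
  rw [← Finset.mul_sum]
  refine le_trans ?_ (mul_le_mul' le_rfl hsum)
  have hN : 4 * (L : ℝ) ^ 2 ≤ Z.card := by
    rw [hZ, Ball.card_boxFin]
    push_cast
    nlinarith
  rw [show env G A₀ = ENNReal.ofReal p0 from (ofReal_measureReal (measure_ne_top _ _)).symm,
    ← ofReal_measureReal (measure_ne_top G (Set.Iio P.θ')),
    show (8 : ℝ≥0∞) = ENNReal.ofReal 8 from (ENNReal.ofReal_ofNat 8).symm,
    show (2⁻¹ : ℝ≥0∞) = ENNReal.ofReal 2⁻¹ by rw [ENNReal.ofReal_inv_of_pos two_pos]; simp,
    ← ENNReal.ofReal_natCast L, ← ENNReal.ofReal_mul hK.le, ← ENNReal.ofReal_mul (by positivity),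
    ← ENNReal.ofReal_div_of_pos (by norm_num), ← ENNReal.ofReal_mul (by positivity),
    ← ENNReal.ofReal_mul (by positivity), ← ENNReal.ofReal_mul (by positivity),
    ← ENNReal.ofReal_mul (by positivity)]
  refine ENNReal.ofReal_le_ofReal ?_
  have hg : 0 ≤ G.real (Set.Iio P.θ') := measureReal_nonneg
  have key : K * G.real (Set.Iio P.θ') * p0 / 8 * L * L ≤
      K / 2 * G.real (Set.Iio P.θ') * (p0 / 2 * Z.card * 2⁻¹) := by
    have := mul_le_mul_of_nonneg_left hN (by positivity : 0 ≤ K * G.real (Set.Iio P.θ') * p0 / 8)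
    have : 0 ≤ K * G.real (Set.Iio P.θ') * p0 / 8 * (L * L) := by positivity
    linarith
  rw [hε, show K / (L : ℝ) / 2 * G.real (Set.Iio P.θ') * (p0 / 2 * Z.card * 2⁻¹) =
    K / 2 * G.real (Set.Iio P.θ') * (p0 / 2 * Z.card * 2⁻¹) / L by ring, le_div_iff₀ hL']
  exact key

open Classical in
/-- One line costs linearly many edges. -/
theorem oneLine_stmt : OneLineStmt G := by
  intro P R
  have hθ : 0 < P.θ := P.pos.trans P.lt
  refine ⟨ENNReal.ofReal (5 * (1 + 1 / P.θ) + 5 * (|R.A| / P.θ)) + 1,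
    ENNReal.add_lt_top.2 ⟨ENNReal.ofReal_lt_top, ENNReal.one_lt_top⟩, fun e₀ K hK => ?_⟩
  have hn : Tendsto (fun L : ℕ => 2 * L + 3) atTop atTop :=
    tendsto_atTop_mono (fun L => show L ≤ 2 * L + 3 by omega) tendsto_id
  have hlong : Tendsto (fun n : ℕ => env G (LongGood P.θ n)ᶜ) atTop (𝓝 0) := by
    refine tendsto_of_tendsto_of_tendsto_of_le_of_le' tendsto_const_nhds P.long
      (Eventually.of_forall fun _ => zero_le) ?_
    filter_upwards [eventually_ge_atTop 1] with n hn1
    exact le_mul_of_one_le_left' (one_le_pow₀ (by exact_mod_cast hn1))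
  have hbad : Tendsto (fun L : ℕ => ENNReal.ofReal (9 * K) *
      (env G (R.good (2 * L + 3))ᶜ + env G (LongGood P.θ (2 * L + 3))ᶜ)) atTop (𝓝 0) := by
    have h := ENNReal.Tendsto.const_mul ((R.prob.comp hn).add (hlong.comp hn))
      (Or.inr (ENNReal.ofReal_ne_top (r := 9 * K)))
    simpa using h
  filter_upwards [hbad.eventually (eventually_le_nhds zero_lt_one), eventually_ge_atTop 1,
    eventually_ge_atTop ⌈K⌉₊] with L hsm hL hLK
  have hL' : (1 : ℝ) ≤ L := by exact_mod_cast hL
  set ε := K / (L : ℝ) with hε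
  have hε0 : 0 ≤ ε := by positivity
  have hε1 : ε ≤ 1 := by
    rw [hε, div_le_one (by positivity)]
    exact Nat.ceil_le.1 hLK
  have := coin_prob hε0 hε1
  have := tiltLaw_prob G hε0 hε1
  set n := 2 * L + 3 with hn'
  set N : ℝ := (n : ℝ) with hN
  have hN0 : 0 < N := by rw [hN, hn']; positivity
  set Gd := R.good n ∩ LongGood P.θ n with hGd
  have hGdm : MeasurableSet Gd := (R.meas_good n).inter (meas_longGood _ _)
  set Z := Ball.boxFin 0 L with hZ
  set B := Measure.infinitePi fun _ : Sym2 V => coin ε with hB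
  set X : Conf → ℝ := fun t => cost t (R.cyc n t).c (R.cyc n t).m + (R.cyc n t).m with hX
  have hXm : Measurable X :=
    R.meas_comp n (f := fun C t => cost t C.c C.m + C.m) fun C => (meas_cost _ _).add_const _
  set a : ℝ := 1 / (N * P.θ) with ha
  set g : Conf → ℝ≥0∞ := fun t =>
    ENNReal.ofReal (N * (1 + 1 / P.θ)) + ENNReal.ofReal a * ENNReal.ofReal (X t ^ 2) with hg
  have hgm : Measurable g := ((hXm.pow_const 2).ennreal_ofReal.const_mul _).const_add _
  set cnt : (Sym2 V → Bool) → ℝ≥0∞ := fun fl =>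
    ∑ z ∈ Z, ({true} : Set Bool).indicator 1 (fl (trE z e₀)) with hcnt
  have hcm : Measurable cnt := Finset.measurable_sum _ fun z _ =>
    (measurable_one.indicator (measurableSet_singleton true)).comp (measurable_pi_apply _)
  have hpt : ∀ p : Conf × Conf × (Sym2 V → Bool), oneLine G P R L e₀ p ≤
      Gd.indicator g p.1 + Gdᶜ.indicator 1 p.1 * cnt p.2.2 := by
    intro p
    unfold oneLine
    split_ifs with h
    · refine le_trans ?_ le_self_add
      rw [Set.indicator_of_mem (show p.1 ∈ Gd from h)]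
      refine le_trans (ENNReal.ofReal_le_ofReal ?_) ?_ (b := ENNReal.ofReal
        (N * (1 + 1 / P.θ) + a * X p.1 ^ 2))
      · have hc : cost p.1 (R.cyc n p.1).c (R.cyc n p.1).m ≤ X p.1 :=
          le_add_of_nonneg_right (Nat.cast_nonneg _)
        have h2 : 2 * X p.1 / P.θ ≤ N / P.θ + a * X p.1 ^ 2 := by
          rw [ha, show N / P.θ + 1 / (N * P.θ) * X p.1 ^ 2 =
            (N ^ 2 + X p.1 ^ 2) / N / P.θ by field_simp]
          refine (div_le_div_iff_of_pos_right hθ).2 ((le_div_iff₀ hN0).2 ?_)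
          nlinarith [sq_nonneg (X p.1 - N)]
        have h3 : 2 * cost p.1 (R.cyc n p.1).c (R.cyc n p.1).m / P.θ ≤ 2 * X p.1 / P.θ :=
          (div_le_div_iff_of_pos_right hθ).2 (by linarith)
        have h4 : N * (1 + 1 / P.θ) = N + N / P.θ := by ring
        linarith
      · refine ENNReal.ofReal_add_le.trans (le_of_eq ?_)
        rw [hg, ENNReal.ofReal_mul (p := a) (by positivity)]
    · refine le_trans (le_of_eq ?_) le_add_self
      rw [Set.indicator_of_mem (show p.1 ∈ Gdᶜ from h), Pi.one_apply, one_mul,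
        Finset.natCast_card_filter, hcnt]
      exact Finset.sum_congr rfl fun z _ => by simp [Set.indicator_apply]
  refine (lintegral_mono hpt).trans ?_
  rw [show tiltLaw G ε = (env G).prod ((env G).prod B) from rfl,
    lintegral_add_left (f := fun p : Conf × Conf × (Sym2 V → Bool) => Gd.indicator g p.1)
      ((hgm.indicator hGdm).comp measurable_fst),
    lintegral_prod_mul (f := Gdᶜ.indicator 1) (g := fun q : Conf × (Sym2 V → Bool) => cnt q.2)
      (measurable_one.indicator hGdm.compl).aemeasurable (hcm.comp measurable_snd).aemeasurable,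
    measurePreserving_fst.lintegral_comp (hgm.indicator hGdm),
    measurePreserving_snd.lintegral_comp hcm, add_mul, one_mul]
  refine add_le_add ?_ ?_
  · -- the good part
    rw [lintegral_indicator hGdm, hg, lintegral_add_left measurable_const,
      lintegral_const_mul _ (hXm.pow_const 2).ennreal_ofReal, setLIntegral_const]
    have hsq : ∫⁻ t in Gd, ENNReal.ofReal (X t ^ 2) ∂env G ≤ ENNReal.ofReal (|R.A| * N ^ 2) :=
      (lintegral_mono_set Set.inter_subset_left).trans ((R.sq n).trans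
        (ENNReal.ofReal_le_ofReal (mul_le_mul_of_nonneg_right (le_abs_self _) (sq_nonneg _))))
    refine (add_le_add (mul_le_of_le_one_right' prob_le_one)
      (mul_le_mul' le_rfl hsq)).trans ?_
    rw [← ENNReal.ofReal_mul (by positivity), ← ENNReal.ofReal_add (by positivity) (by positivity),
      ← ENNReal.ofReal_natCast L, ← ENNReal.ofReal_mul (by positivity)]
    refine ENNReal.ofReal_le_ofReal ?_
    have hN5 : N ≤ 5 * L := by rw [hN, hn']; push_cast; linarith
    have e : a * (|R.A| * N ^ 2) = |R.A| / P.θ * N := by rw [ha]; field_simp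
    rw [e]
    have h1 : N * (1 + 1 / P.θ) ≤ 5 * L * (1 + 1 / P.θ) :=
      mul_le_mul_of_nonneg_right hN5 (by positivity)
    have h2 : |R.A| / P.θ * N ≤ |R.A| / P.θ * (5 * L) :=
      mul_le_mul_of_nonneg_left hN5 (by positivity)
    linarith
  · -- the bad part
    rw [lintegral_indicator_one hGdm.compl]
    have hc1 : ∫⁻ fl, cnt fl ∂B = Z.card * ENNReal.ofReal ε := by
      have hm : ∀ z ∈ Z, Measurable fun fl : Sym2 V → Bool =>
          ({true} : Set Bool).indicator (1 : Bool → ℝ≥0∞) (fl (trE z e₀)) := fun z _ =>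
        (measurable_one.indicator (measurableSet_singleton true)).comp (measurable_pi_apply _)
      simp only [hcnt]
      rw [lintegral_finsetSum _ hm]
      rw [← nsmul_eq_mul, ← Finset.sum_const]
      refine Finset.sum_congr rfl fun z _ => ?_
      rw [hB, ← lintegral_map (measurable_one.indicator (measurableSet_singleton true))
        (measurable_pi_apply _), Measure.infinitePi_map_eval,
        lintegral_indicator_one (measurableSet_singleton true)]
      simp [coin]
    have hcast : (Z.card : ℝ≥0∞) * ENNReal.ofReal ε ≤ L * ENNReal.ofReal (9 * K) := by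
      rw [← ENNReal.ofReal_natCast, ← ENNReal.ofReal_natCast L,
        ← ENNReal.ofReal_mul (by positivity), ← ENNReal.ofReal_mul (by positivity)]
      refine ENNReal.ofReal_le_ofReal ?_
      rw [hZ, Ball.card_boxFin, hε, ← mul_div_assoc, div_le_iff₀ (by positivity)]
      push_cast
      nlinarith [mul_le_mul_of_nonneg_right
        (show (2 * (L : ℝ) + 1) ^ 2 ≤ 9 * L * L by nlinarith) hK.le]
    rw [hc1]
    refine (mul_le_mul' (le_of_eq_of_le (by rw [hGd, Set.compl_inter]) (measure_union_le _ _))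
      hcast).trans ?_
    calc _ = (L : ℝ≥0∞) * (ENNReal.ofReal (9 * K) *
          (env G (R.good n)ᶜ + env G (LongGood P.θ n)ᶜ)) := by ring
      _ ≤ L * 1 := mul_le_mul' le_rfl hsm
      _ = L := mul_one _

end Vale.Agent.P158.NB
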