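import Vale.Agent.P158.NB.Main.Point
import Vale.Agent.P158.NB.Main.Tilt

/-!
# P158: the conjecture from its pieces

With the tilt of intensity `K / L` on a ball of radius `L`, at least of order `K L` selected edges
lie on lines, while the mass of the ball and the loss from a single line are of order `L`.
-/

namespace Vale.Agent.P158.NB

open Vale.Agent.P158 MeasureTheory Filter Topology
open scoped ENNReal

variable {G : Measure ℝ} [IsProbabilityMeasure G]

/-- Some typical long path shows that lines have strong edges. -/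
lemma line_strong (P : Params G) : ∀ᵐ t ∂env G, ∀ γ, IsLine t γ →
    ∃ i : ℤ, P.θ ≤ t s(γ i, γ (i + 1)) := by
  have hlong : Tendsto (fun n => env G (LongGood P.θ n)ᶜ) atTop (𝓝 0) := by
    refine tendsto_of_tendsto_of_tendsto_of_le_of_le' tendsto_const_nhds P.long
      (Eventually.of_forall fun _ => zero_le) ?_
    filter_upwards [eventually_ge_atTop 1] with n hn
    exact le_mul_of_one_le_left' (one_le_pow₀ (by exact_mod_cast hn))
  have hev : ∀ᵐ t ∂env G, ∀ m, ∃ n, m ≤ n ∧ t ∈ LongGood P.θ n := by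
    refine ae_all_iff.2 fun m => ae_iff.2 ?_
    refine le_antisymm (ge_of_tendsto hlong ?_) zero_le
    filter_upwards [eventually_ge_atTop m] with n hn
    exact measure_mono fun t ht hgood => ht ⟨n, hn, hgood⟩
  filter_upwards [hev] with t ht γ hγ
  obtain ⟨r, hr⟩ := box0_finite_bound {γ 0}
  obtain ⟨n, hn, hgood⟩ := ht (r + 1)
  have hlen := hgood (fun k : ℕ => γ (0 + k)) n (hγ.geo 0 n).1
    (fun a _ b _ h => by have := hγ.inj h; omega)
    (box_mono (show r ≤ 4 * n by omega) (by simpa using hr (γ 0) (Finset.mem_singleton_self _))) le_rfl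
  obtain ⟨k, hk⟩ : ((Finset.range n).filter fun k : ℕ =>
      P.θ ≤ t s(γ (0 + k), γ (0 + (k + 1 : ℕ)))).Nonempty := by
    rw [← Finset.card_pos]
    omega
  refine ⟨0 + k, ?_⟩
  have := (Finset.mem_filter.1 hk).2
  rwa [show (0 : ℤ) + ((k + 1 : ℕ) : ℤ) = 0 + k + 1 by push_cast; ring] at this

/-- A property of a typical configuration holds after the tilt. -/
lemma ae_tilt (hC : ChangeStmt G) (hatom : ∀ x, G {x} = 0) (F : Finset (Sym2 V)) {ε : ℝ}
    (h0 : 0 ≤ ε) (h1 : ε ≤ 1) {p : Conf → Prop} (hp : ∀ᵐ t ∂env G, p t) :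
    ∀ᵐ q ∂tiltLaw G ε, p q.1 ∧ p (tiltW F q.1 q.2.1 q.2.2) := by
  have := coin_prob h0 h1
  refine Filter.Eventually.and ?_ ?_
  · exact (Measure.quasiMeasurePreserving_fst (μ := env G)
      (ν := (env G).prod (Measure.infinitePi fun _ : Sym2 V => coin ε))).ae hp
  · obtain ⟨N, hsub, hN, hN0⟩ := exists_measurable_superset_of_null (ae_iff.1 hp)
    have h := ((hC hatom).2.2.1 F ε h0 h1 N hN)
    rw [hN0, mul_zero, nonpos_iff_eq_zero, sq_eq_zero_iff] at h
    exact ae_iff.2 (measure_mono_null (fun q hq => hsub hq) h)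

theorem noBigeodesic_of_pieces (hOK : OKStmt G) (hC : ChangeStmt G) (hR : RingStmt G)
    (hT : TailStmt G) (hJ : JoinStmt G) (hM : MongeStmt) (hSL : SegLineStmt)
    (hLC : LineCountStmt) (hFM : FarMassStmt G) (hTL : TiltLowerStmt G) (hOL : OneLineStmt G) :
    NoBigeodesicStmt G := by
  intro h0 hatom
  obtain ⟨hok, ⟨P⟩⟩ := hOK h0 hatom
  obtain ⟨R⟩ := hR h0 hatom
  by_contra hne
  obtain ⟨e, he, hpos⟩ : ∃ e, IsEdge e ∧ env G (strongSeg P.θ e) ≠ 0 := by
    by_contra hall
    push Not at hall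
    refine hne ?_
    have hnull : ∀ᵐ t ∂env G, ∀ e, IsEdge e → t ∉ strongSeg P.θ e := by
      refine ae_all_iff.2 fun e => ?_
      by_cases he : IsEdge e
      · filter_upwards [measure_eq_zero_iff_ae_notMem.1 (hall e he)] with t ht _ using ht
      · exact Eventually.of_forall fun t h => absurd h he
    filter_upwards [hnull, line_strong P, hok] with t ht hs hokt
    rintro ⟨γ, hγ⟩
    obtain ⟨i, hi⟩ := hs γ hγ
    exact ht _ ⟨_, _, hγ.adj i, rfl⟩ ⟨hi, (hSL t _ hokt).2 ⟨γ, hγ, i, rfl⟩⟩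
  -- an edge at the origin
  obtain ⟨a, b, hab, rfl⟩ := he
  set e₀ := trE (-a) s(a, b) with he₀def
  have he₀ : IsEdge e₀ := isEdge_trE ⟨a, b, hab, rfl⟩
  have he₀box : e₀ ∈ edgesIn (box 0 1) := by
    intro v hv
    rw [he₀def, trE_mk, Sym2.mem_iff] at hv
    have := adj_cases hab
    simp only [box, Set.mem_ofPred_eq, abs_le, Prod.fst_zero, Prod.snd_zero, sub_zero]
    rcases hv with rfl | rfl <;>
      simp only [Prod.fst_add, Prod.snd_add, Prod.fst_neg, Prod.snd_neg] <;> push_cast <;> omega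
  set q := env G (strongSeg P.θ e₀) with hq
  have hq0 : 0 < q := by
    refine lt_of_lt_of_le (pos_iff_ne_zero.2 hpos) ?_
    have hsub : strongSeg P.θ s(a, b) ⊆ shiftW a ⁻¹' toMeasurable (env G) (strongSeg P.θ e₀) := by
      intro t ht
      refine subset_toMeasurable _ _ ((Tilt.mem_strongSeg_shift _ _ _ _).2 ?_)
      rwa [he₀def, trE_trE, neg_add_cancel, trE_zero]
    refine (measure_mono hsub).trans ?_
    rw [← Measure.map_apply (Ball.measurable_shiftW a) (measurableSet_toMeasurable _ _),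
      (hC hatom).1 a, measure_toMeasurable]
  obtain ⟨B, hB, hfar⟩ := hFM P R hok
  obtain ⟨C₀, hC₀, hone⟩ := hOL P R
  set g₀ := ENNReal.ofReal (P.θ - P.θ') with hg₀
  have hg₀0 : g₀ ≠ 0 := by simpa [hg₀] using P.lt
  set c := g₀ * (G (Set.Iio P.θ') * q / 8) with hc
  have hc0 : c ≠ 0 :=
    mul_ne_zero hg₀0 (ENNReal.div_ne_zero.2 ⟨mul_ne_zero P.mass.ne' hq0.ne', by simp⟩)
  have hctop : c ≠ ⊤ := ENNReal.mul_ne_top ENNReal.ofReal_ne_top
    (ENNReal.div_ne_top (ENNReal.mul_ne_top (measure_ne_top _ _) (measure_ne_top _ _)) (by simp))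
  set D := B + g₀ * C₀ with hD
  have hDtop : D ≠ ⊤ :=
    ENNReal.add_ne_top.2 ⟨hB.ne, ENNReal.mul_ne_top ENNReal.ofReal_ne_top hC₀.ne⟩
  set K := (D / c).toReal + 1 with hK
  have hK0 : 0 < K := by positivity
  obtain ⟨L, hlow, hup, hKL, hL⟩ :=
    ((hTL P e₀ he₀ he₀box K hK0 hq0).and ((hone e₀ K hK0).and
      ((((tendsto_natCast_atTop_atTop (R := ℝ)).eventually_ge_atTop K)).and
        (eventually_ge_atTop 1)))).exists
  have hLpos : (0 : ℝ) < L := by exact_mod_cast hL
  have hε0 : 0 ≤ K / L := by positivity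
  have hε1 : K / L ≤ 1 := by rw [div_le_one hLpos]; exact hKL
  have := coin_prob hε0 hε1
  set μ := tiltLaw G (K / L) with hμ
  set F := Ball.boxEdges 0 (2 * L + 2) with hF
  have hfst : MeasurePreserving (Prod.fst : Conf × Conf × (Sym2 V → Bool) → Conf) μ (env G) :=
    measurePreserving_fst (μ := env G)
      (ν := (env G).prod (Measure.infinitePi fun _ : Sym2 V => coin (K / L)))
  have hmono : Monotone fun N => farMass G R L N := fun N M hNM t =>
    le_iInf fun n => le_iInf fun hn => iInf_le_of_le n (iInf_le_of_le (hNM.trans hn) le_rfl)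
  have hsup : ∫⁻ p, ⨆ N, farMass G R L N p.1 ∂μ ≤ B * L := by
    rw [hfst.lintegral_comp (f := fun t => ⨆ N, farMass G R L N t)
      (Measurable.iSup fun N => (hfar L hL N).1), lintegral_iSup (fun N => (hfar L hL N).1) hmono]
    exact iSup_le fun N => (hfar L hL N).2
  have hpoint : ∀ᵐ p ∂μ, g₀ * ((selected G P L e₀ p).card : ℝ≥0∞) ≤
      (⨆ N, farMass G R L N p.1) + g₀ * oneLine G P R L e₀ p := by
    filter_upwards [ae_tilt hC hatom F hε0 hε1 hok, ae_tilt hC hatom F hε0 hε1 (hT P R),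
      ae_tilt hC hatom F hε0 hε1 (hJ P R)] with p h1 h2 h3
    exact selected_le hM hSL hLC P R L he₀box p h1.1 h1.2 h2.1 h2.2 h3.2
  have key : c * ENNReal.ofReal K * L ≤ D * L := by
    calc c * ENNReal.ofReal K * L
        = g₀ * (ENNReal.ofReal K * G (Set.Iio P.θ') * q / 8 * L) := by
          simp only [hc, div_eq_mul_inv]; ring
      _ ≤ g₀ * ∫⁻ p, ((selected G P L e₀ p).card : ℝ≥0∞) ∂μ := mul_le_mul_right hlow _
      _ = ∫⁻ p, g₀ * ((selected G P L e₀ p).card : ℝ≥0∞) ∂μ :=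
          (lintegral_const_mul' _ _ ENNReal.ofReal_ne_top).symm
      _ ≤ ∫⁻ p, (⨆ N, farMass G R L N p.1) + g₀ * oneLine G P R L e₀ p ∂μ :=
          lintegral_mono_ae hpoint
      _ = (∫⁻ p, ⨆ N, farMass G R L N p.1 ∂μ) + g₀ * ∫⁻ p, oneLine G P R L e₀ p ∂μ := by
          have hm : Measurable fun p : Conf × Conf × (Sym2 V → Bool) =>
              ⨆ N, farMass G R L N p.1 :=
            (Measurable.iSup fun N => (hfar L hL N).1).comp measurable_fst
          rw [lintegral_add_left hm, lintegral_const_mul' _ _ ENNReal.ofReal_ne_top]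
      _ ≤ B * L + g₀ * (C₀ * L) := add_le_add hsup (mul_le_mul_right hup _)
      _ = D * L := by rw [hD]; ring
  have key' : c * ENNReal.ofReal K ≤ D :=
    (ENNReal.mul_le_mul_iff_left (Nat.cast_ne_zero.2 (by omega)) (ENNReal.natCast_ne_top L)).1 key
  have hle : ENNReal.ofReal K ≤ D / c := by
    rw [ENNReal.le_div_iff_mul_le (Or.inl hc0) (Or.inl hctop), mul_comm]
    exact key'
  have := ENNReal.toReal_mono (ENNReal.div_ne_top hDtop hc0) hle
  rw [ENNReal.toReal_ofReal hK0.le] at this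
  linarith

end Vale.Agent.P158.NB
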