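import Vale.Agent.P158.NB.CycGeom
import Vale.Agent.P158.NB.Ball

/-!
# P158: pins for the pieces of the main step
-/

namespace Vale.Agent.P158.NB

open Vale.Agent.P158 MeasureTheory Filter Topology
open scoped ENNReal

variable (G : Measure ℝ) [IsProbabilityMeasure G]

/-- The mass at the ball of radius `2L+2` around the origin, seen by the distant domains. -/
noncomputable def farMass (R : Ring G) (L N : ℕ) (t : Conf) : ℝ≥0∞ :=
  ⨅ (n : ℕ) (_ : N ≤ n) (z : V) (_ : z ∈ box 0 (n / 8))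
    (C : Cyc) (_ : C ∈ Set.range (R.cyc n)) (_ : C.Encloses 0 n),
    ENNReal.ofReal ((C.shift (-z)).mass t (Ball.boxEdges 0 (2 * L + 2) : Set (Sym2 V)))

/-- The mass of a ball is linear in its radius, uniformly. -/
def FarMassStmt : Prop :=
  ∀ (P : Params G) (R : Ring G), (∀ᵐ t ∂env G, OK t) → ∃ B : ℝ≥0∞, B < ⊤ ∧ ∀ L : ℕ, 1 ≤ L →
    ∀ N, Measurable (farMass G R L N) ∧ ∫⁻ t, farMass G R L N t ∂env G ≤ B * L

/-- One line uses linearly many edges of a box. -/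
def LineCountStmt : Prop :=
  ∀ (θ : ℝ) (t s : Conf) (r n : ℕ) (C : Cyc), OK t → OK s → (∀ e, t e ≤ s e) →
    (∀ e, e ∉ edgesIn (box 0 r) → t e = s e) → C.Encloses 0 (r + 1) →
    (∀ k < C.m, C.c k ∈ box 0 (4 * n)) → t ∈ LongGood θ n → 0 < θ →
    ∀ γ, IsLine s γ → ∀ S : Finset (Sym2 V),
      (∀ e ∈ S, e ∈ edgesIn (box 0 r) ∧ LineUses γ e) →
      θ * S.card ≤ θ * n + 2 * cost t C.c C.m

/-- Geodesic segments of all radii around an edge give a line through it, and conversely. -/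
def SegLineStmt : Prop :=
  ∀ (t : Conf) (e : Sym2 V), OK t →
    ((∀ k, ∃ v, Seg t e k v) ↔ ∃ γ, IsLine t γ ∧ LineUses γ e)

/-- A strong edge with geodesic segments of all radii around it. -/
def strongSeg (θ : ℝ) (e : Sym2 V) : Set Conf := {t | θ ≤ t e ∧ ∀ k, ∃ v, Seg t e k v}

open Classical in
/-- The centres in the box whose translate of `e₀` is flagged, small in `t` and on a line of `s`. -/
noncomputable def selected (P : Params G) (L : ℕ) (e₀ : Sym2 V)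
    (p : Conf × Conf × (Sym2 V → Bool)) : Finset V :=
  (Ball.boxFin 0 L).filter fun z =>
    tiltW (Ball.boxEdges 0 (2 * L + 2)) p.1 p.2.1 p.2.2 ∈ strongSeg P.θ (trE z e₀) ∧
      p.2.2 (trE z e₀) = true ∧ p.1 (trE z e₀) < P.θ'

open Classical in
/-- What is lost if all selected edges are on one line. -/
noncomputable def oneLine (P : Params G) (R : Ring G) (L : ℕ) (e₀ : Sym2 V)
    (p : Conf × Conf × (Sym2 V → Bool)) : ℝ≥0∞ :=
  if p.1 ∈ R.good (2 * L + 3) ∧ p.1 ∈ LongGood P.θ (2 * L + 3) then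
    ENNReal.ofReal (((2 * L + 3 : ℕ) : ℝ) +
      2 * cost p.1 (R.cyc (2 * L + 3) p.1).c (R.cyc (2 * L + 3) p.1).m / P.θ)
  else (((Ball.boxFin 0 L).filter fun z => p.2.2 (trE z e₀) = true).card : ℝ≥0∞)

/-- Under the tilt there are many selected edges. -/
def TiltLowerStmt : Prop :=
  ∀ (P : Params G) (e₀ : Sym2 V), IsEdge e₀ → e₀ ∈ edgesIn (box 0 1) → ∀ K : ℝ, 0 < K →
    0 < env G (strongSeg P.θ e₀) → ∀ᶠ L : ℕ in atTop,
      ENNReal.ofReal K * G (Set.Iio P.θ') * env G (strongSeg P.θ e₀) / 8 * L ≤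
        ∫⁻ p, ((selected G P L e₀ p).card : ℝ≥0∞) ∂tiltLaw G (K / L)

/-- One line costs only linearly in the radius, whatever the tilt. -/
def OneLineStmt : Prop :=
  ∀ (P : Params G) (R : Ring G), ∃ C₀ : ℝ≥0∞, C₀ < ⊤ ∧
    ∀ (e₀ : Sym2 V) (K : ℝ), 0 < K → ∀ᶠ L : ℕ in atTop,
      ∫⁻ p, oneLine G P R L e₀ p ∂tiltLaw G (K / L) ≤ C₀ * L

end Vale.Agent.P158.NB
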