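import Vale.Agent.P158.NB.Main.Pins
import Vale.Agent.P158.NB.Core

/-!
# P158: the gain at the selected edges, for one configuration
-/

namespace Vale.Agent.P158.NB

open Vale.Agent.P158 MeasureTheory Filter Topology
open scoped ENNReal

variable {G : Measure ℝ}

lemma trE_left_inj {a b : V} {z w : V} (h : trE z s(a, b) = trE w s(a, b)) : z = w := by
  simp only [trE_mk, Sym2.eq_iff, Prod.ext_iff, Prod.fst_add, Prod.snd_add] at h
  ext <;> omega

lemma trE_mem_box {e : Sym2 V} {z : V} {L : ℕ} (he : e ∈ edgesIn (box 0 1)) (hz : z ∈ box 0 L) :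
    trE z e ∈ edgesIn (box 0 (L + 1)) := by
  induction e using Sym2.ind with
  | _ a b =>
    have ha := he a (Sym2.mem_mk_left a b)
    have hb := he b (Sym2.mem_mk_right a b)
    intro v hv
    rw [trE_mk, Sym2.mem_iff] at hv
    simp only [box, Set.mem_ofPred_eq, abs_le, Prod.fst_zero, Prod.snd_zero, sub_zero] at ha hb hz ⊢
    rcases hv with rfl | rfl <;> simp only [Prod.fst_add, Prod.snd_add] <;> push_cast <;> omega

lemma encloses_shift_neg {C : Cyc} {z : V} {n N : ℕ} (hC : C.Encloses 0 n)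
    (hz : z ∈ box 0 (n / 8)) (hN : 2 * N ≤ n) : (C.shift (-z)).Encloses 0 N := by
  have h := (C.shift_encloses (-z) 0 n).2 hC
  have hsub : box 0 N ⊆ box (0 + -z) n := fun v hv => by
    simp only [box, Set.mem_ofPred_eq, abs_le, Prod.fst_zero, Prod.snd_zero, sub_zero, zero_add,
      Prod.fst_neg, Prod.snd_neg] at hv hz ⊢
    omega
  exact ⟨fun k hk hm => h.1 k hk (hsub hm), fun f h1 h2 => h.2 f (hsub h1) (hsub h2)⟩

lemma tilt_eq (F : Finset (Sym2 V)) (t t' : Conf) (fl : Sym2 V → Bool) {e : Sym2 V}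
    (he : e ∉ F) : t e = tiltW F t t' fl e := by simp [tiltW, he]

lemma tilt_le (F : Finset (Sym2 V)) (t t' : Conf) (fl : Sym2 V → Bool) (e : Sym2 V) :
    t e ≤ tiltW F t t' fl e := by
  by_cases h : e ∈ F ∧ fl e = true <;> simp [tiltW, h]

/-- Strong selected edges on one line give a window of gains. -/
lemma exists_window {t s : Conf} (hle : ∀ e, t e ≤ s e) {γ : ℤ → V} {g₀ : ℝ}
    (S : Finset (Sym2 V)) (hS : ∀ e ∈ S, LineUses γ e ∧ g₀ ≤ s e - t e) :
    ∃ a b, g₀ * S.card ≤ winGain t s γ a b := by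
  classical
  choose idx hidx using fun e : {x // x ∈ S} => (hS e.1 e.2).1
  have hinj : Function.Injective idx := fun e f h => by
    apply Subtype.ext; rw [← hidx e, ← hidx f, h]
  obtain ⟨r, hr⟩ : ∃ r : ℕ, ∀ e, (idx e).natAbs ≤ r :=
    ⟨Finset.univ.sup fun e => (idx e).natAbs,
      fun e => Finset.le_sup (f := fun e => (idx e).natAbs) (Finset.mem_univ e)⟩
  refine ⟨-(r : ℤ), (r : ℤ) + 1, ?_⟩
  set f : ℕ → ℝ := fun k =>
    s s(γ (-(r : ℤ) + k), γ (-(r : ℤ) + (k + 1 : ℕ))) -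
      t s(γ (-(r : ℤ) + k), γ (-(r : ℤ) + (k + 1 : ℕ)))
  set pos : {x // x ∈ S} → ℕ := fun e => (idx e + r).toNat with hpos
  have hpe : ∀ e, (pos e : ℤ) = idx e + r := fun e => by
    have := hr e; simp only [hpos]; omega
  have hval : ∀ e, g₀ ≤ f (pos e) := fun e => by
    have h2 := (hS e.1 e.2).2
    simp only [f]
    rwa [show -(r : ℤ) + (pos e : ℤ) = idx e by have := hpe e; omega,
      show -(r : ℤ) + ((pos e + 1 : ℕ) : ℤ) = idx e + 1 by have := hpe e; omega, hidx e]
  calc g₀ * S.card = ∑ _e : {x // x ∈ S}, g₀ := by simp [mul_comm]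
    _ ≤ ∑ e, f (pos e) := Finset.sum_le_sum fun e _ => hval e
    _ = ∑ k ∈ Finset.univ.image pos, f k :=
      (Finset.sum_image fun e _ f _ h => hinj (by have := hpe e; have := hpe f; omega)).symm
    _ ≤ winGain t s γ (-(r : ℤ)) ((r : ℤ) + 1) := by
      refine Finset.sum_le_sum_of_subset_of_nonneg (fun k hk => ?_) fun k _ _ =>
        sub_nonneg.2 (hle _)
      obtain ⟨e, -, rfl⟩ := Finset.mem_image.1 hk
      have := hpe e
      have := hr e
      simp only [Finset.mem_range]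
      omega

theorem selected_le (hM : MongeStmt) (hSL : SegLineStmt) (hLC : LineCountStmt) (P : Params G)
    (R : Ring G) (L : ℕ) {e₀ : Sym2 V} (he₀ : e₀ ∈ edgesIn (box 0 1))
    (p : Conf × Conf × (Sym2 V → Bool)) (ht : OK p.1)
    (hs : OK (tiltW (Ball.boxEdges 0 (2 * L + 2)) p.1 p.2.1 p.2.2))
    (hJt : ∀ γ δ, IsLine p.1 γ → IsLine p.1 δ → ShareTail γ δ → SameLine γ δ)
    (hJs : ∀ γ δ, IsLine (tiltW (Ball.boxEdges 0 (2 * L + 2)) p.1 p.2.1 p.2.2) γ →
      IsLine (tiltW (Ball.boxEdges 0 (2 * L + 2)) p.1 p.2.1 p.2.2) δ → ShareTail γ δ → SameLine γ δ)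
    (hCs : ∀ γ, IsLine (tiltW (Ball.boxEdges 0 (2 * L + 2)) p.1 p.2.1 p.2.2) γ →
      ∀ x, Joins (tiltW (Ball.boxEdges 0 (2 * L + 2)) p.1 p.2.1 p.2.2) γ x) :
    ENNReal.ofReal (P.θ - P.θ') * ((selected G P L e₀ p).card : ℝ≥0∞) ≤
      (⨆ N, farMass G R L N p.1) + ENNReal.ofReal (P.θ - P.θ') * oneLine G P R L e₀ p := by
  classical
  induction e₀ using Sym2.ind with
  | _ a b =>
  set F := Ball.boxEdges 0 (2 * L + 2)
  set t := p.1
  set s := tiltW F p.1 p.2.1 p.2.2 with hsdef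
  set Sel := selected G P L s(a, b) p with hSel
  set g₀ := P.θ - P.θ' with hg₀
  have hg₀pos : 0 < g₀ := sub_pos.2 P.lt
  have hle : ∀ e, t e ≤ s e := tilt_le F p.1 p.2.1 p.2.2
  have heq : ∀ e, e ∉ F → t e = s e := fun e he => tilt_eq F p.1 p.2.1 p.2.2 he
  have hline : ∀ z : {x // x ∈ Sel}, ∃ γ, IsLine s γ ∧ LineUses γ (trE z.1 s(a, b)) := fun z =>
    (hSL s _ hs).1 (Finset.mem_filter.1 z.2).2.1.2
  choose γ hγ using hline
  have hgain : ∀ z : {x // x ∈ Sel}, g₀ ≤ s (trE z.1 s(a, b)) - t (trE z.1 s(a, b)) := fun z => by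
    have h := (Finset.mem_filter.1 z.2).2
    have h1 : P.θ ≤ s (trE z.1 s(a, b)) := h.1.1
    have h2 : t (trE z.1 s(a, b)) < P.θ' := h.2.2
    linarith
  have hinj : Function.Injective fun z : {x // x ∈ Sel} => trE z.1 s(a, b) :=
    fun z w h => Subtype.ext (trE_left_inj h)
  let St : Setoid {x // x ∈ Sel} := ⟨fun z w => SameLine (γ z) (γ w),
    fun _ => SameLine.refl _, SameLine.symm, SameLine.trans⟩
  let rep : {x // x ∈ Sel} → (ℤ → V) := fun z => γ (Quotient.out (Quotient.mk St z))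
  have hrep : ∀ z, SameLine (rep z) (γ z) := fun z => Quotient.mk_out (s := St) z
  set Γ := Finset.univ.image rep with hΓ
  by_cases h2 : 2 ≤ Γ.card
  · refine le_trans ?_ le_self_add
    let S : (ℤ → V) → Finset (Sym2 V) := fun δ =>
      (Finset.univ.filter fun z => rep z = δ).image fun z => trE z.1 s(a, b)
    have hg : ∀ δ ∈ Γ, 0 < g₀ * (S δ).card ∧
        ∃ a b, g₀ * (S δ).card ≤ winGain t s δ a b := fun δ hδ => by
      obtain ⟨z, -, rfl⟩ := Finset.mem_image.1 hδ
      refine ⟨mul_pos hg₀pos (Nat.cast_pos.2 (Finset.card_pos.2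
        ⟨_, Finset.mem_image_of_mem _ (Finset.mem_filter.2 ⟨Finset.mem_univ z, rfl⟩)⟩)), ?_⟩
      refine exists_window hle _ fun e he => ?_
      obtain ⟨w, hw, rfl⟩ := Finset.mem_image.1 he
      exact ⟨((Finset.mem_filter.1 hw).2 ▸ hrep w _).2 (hγ w).2, hgain w⟩
    obtain ⟨N, hN⟩ := core ht hs F hle heq hJt hJs hCs hM Γ h2
      (fun δ hδ => by obtain ⟨z, -, rfl⟩ := Finset.mem_image.1 hδ; exact (hγ _).1)
      (fun δ hδ δ' hδ' hne hsame => by
        obtain ⟨z, -, rfl⟩ := Finset.mem_image.1 hδ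
        obtain ⟨w, -, rfl⟩ := Finset.mem_image.1 hδ'
        refine hne (congrArg γ (congrArg Quotient.out (Quotient.sound (s := St) ?_)))
        exact ((hrep z).symm.trans hsame).trans (hrep w))
      (fun δ => g₀ * (S δ).card) hg
    have hsum : ∑ δ ∈ Γ, g₀ * ((S δ).card : ℝ) = g₀ * Sel.card := by
      rw [← Finset.mul_sum]
      congr 1
      rw [← Nat.cast_sum]
      congr 1
      rw [← Fintype.card_coe Sel, ← Finset.card_univ,
        Finset.card_eq_sum_card_fiberwise (f := rep) (t := Γ)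
          fun z hz => Finset.mem_image_of_mem rep hz]
      exact Finset.sum_congr rfl fun δ _ => Finset.card_image_of_injective _ hinj
    refine le_trans ?_ (le_iSup _ (2 * N))
    refine le_iInf fun n => le_iInf fun hn => le_iInf fun z => le_iInf fun hz => le_iInf fun C =>
      le_iInf fun _ => le_iInf fun hC => ?_
    rw [← ENNReal.ofReal_natCast, ← ENNReal.ofReal_mul hg₀pos.le, ← hsum]
    exact ENNReal.ofReal_le_ofReal (hN _ (encloses_shift_neg hC hz hn))
  · refine le_trans ?_ le_add_self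
    refine mul_le_mul_right ?_ _
    unfold oneLine
    split_ifs with hgood
    · rcases Sel.eq_empty_or_nonempty with h0 | ⟨z₁, hz₁⟩
      · simp [h0]
      obtain ⟨δ, hδ⟩ : ∃ δ, ∀ z, rep z = δ := ⟨rep ⟨z₁, hz₁⟩, fun z =>
        Finset.card_le_one.1 (show (Finset.univ.image rep).card ≤ 1 by rw [← hΓ]; omega) _
          (Finset.mem_image_of_mem rep (Finset.mem_univ z)) _
          (Finset.mem_image_of_mem rep (Finset.mem_univ _))⟩
      have hδline : IsLine s δ := hδ ⟨z₁, hz₁⟩ ▸ (hγ _).1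
      have key := hLC P.θ t s (2 * L + 2) (2 * L + 3) (R.cyc (2 * L + 3) t) ht hs hle
        (fun e he => by
          by_cases h : e ∈ F
          · exact absurd (Ball.mem_boxEdges.1 h).2 he
          · exact heq e h)
        (R.encl _ _ hgood.1) (fun k hk => box_mono (by omega) (R.sub _ _ hgood.1 k hk)) hgood.2
        (P.pos.trans P.lt) δ hδline
        (Finset.univ.image fun z : {x // x ∈ Sel} => trE z.1 s(a, b)) fun e he => by
          obtain ⟨z, -, rfl⟩ := Finset.mem_image.1 he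
          refine ⟨fun v hv => box_mono (by omega) (trE_mem_box he₀
            (Ball.mem_boxFin.1 (Finset.mem_filter.1 z.2).1) v hv), ?_⟩
          exact (hδ z ▸ hrep z _).2 (hγ z).2
      rw [Finset.card_image_of_injective _ hinj, Finset.card_univ, Fintype.card_coe] at key
      rw [← ENNReal.ofReal_natCast]
      refine ENNReal.ofReal_le_ofReal ?_
      have hθ := P.pos.trans P.lt
      field_simp
      linarith
    · exact Nat.cast_le.2 (Finset.card_le_card fun z hz => by
        obtain ⟨h1, -, h2, -⟩ := Finset.mem_filter.1 hz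
        exact Finset.mem_filter.2 ⟨h1, h2⟩)

end Vale.Agent.P158.NB
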